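import Vale.Agent.P011UD7.Sl

/-!
Elements of Weyl groups with large angles.
-/

set_option autoImplicit false
set_option linter.all false

namespace Vale.Agent.P011UD7

open Matrix Vale.Agent.P183CH Vale.Agent.P183CH.RS Vale.Agent.P011U Vale.Agent.P011UHB
open Vale.Agent.P011UC (pa)
open Vale.Agent.P011UHN (acL acL_ap ac_cv ip_cv cv_add cv_sub cv_smul ip_adj ip_comm ip_pos ipL
  ipL_ap shift_le ext_sign ip_add add_ip ip_smul smul_ip ac_add ac_smul ip_nonneg ip_ext sum_cv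
  ac_mul ac_inv ac_inv')

variable {R : RS} {w : R.Aut} {γ δ : R.Q} {N : ℤ} {P : Set R.Aut} {c : ℝ} {x : Fin R.r → ℝ}

/-- `w + w⁻¹` -/
noncomputable def Sz (w : R.Aut) : Module.End ℤ R.Q := w.toLinearMap + (w⁻¹ : R.Aut).toLinearMap

theorem Sz_ap (w : R.Aut) (γ : R.Q) : Sz w γ = w γ + w⁻¹ γ := rfl

/-- the same over the real numbers -/
noncomputable def Sr (w : R.Aut) : Module.End ℝ (Fin R.r → ℝ) := acL w + acL w⁻¹

theorem Sr_ap (w : R.Aut) (x : Fin R.r → ℝ) : Sr w x = ac R w x + ac R w⁻¹ x := rfl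

theorem Sr_cv (w : R.Aut) (γ : R.Q) : Sr w (cv R γ) = cv R (Sz w γ) := by
  rw [Sr_ap, ac_cv, ac_cv, Sz_ap, cv_add]

theorem poly {t : ℝ} (h1 : -2 ≤ t) (h2 : t ≤ 0.62) :
    ((t + 2) * ((t * t + t) * (t * t + t - 1))) ^ 2 < 1 := by
  have a : -1 / 4 ≤ t * t + t := by nlinarith [sq_nonneg (2 * t + 1)]
  rw [sq_lt_one_iff_abs_lt_one, abs_lt]
  rcases le_total t (-1.6) with h | h
  · have b : t * t + t ≤ 2 := by nlinarith
    generalize t * t + t = s at *
    have : s * (s - 1) ≤ 2 := by nlinarith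
    have : -1 / 4 ≤ s * (s - 1) := by nlinarith [sq_nonneg (2 * s - 1)]
    constructor <;> nlinarith
  · have b : t * t + t ≤ 1.005 := by nlinarith
    generalize t * t + t = s at *
    have : s * (s - 1) ≤ 5 / 16 := by nlinarith
    have : -1 / 4 ≤ s * (s - 1) := by nlinarith [sq_nonneg (2 * s - 1)]
    constructor <;> nlinarith

variable (hR : R.Ok)
include hR

theorem Sz_adj (h : Ext R w) (γ δ : R.Q) : R.B (Sz w γ) δ = R.B γ (Sz w δ) := by
  have h1 := ext_adj hR h γ δ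
  have h2 := ext_adj hR (ext_inv hR h) γ δ
  simp only [Sz_ap, B_Bl hR, map_add, LinearMap.add_apply, inv_inv] at *
  omega

theorem Sz_quad (h : Ext R w) (γ : R.Q) : R.B γ (Sz w γ) = 2 * R.B γ (w γ) := by
  have h1 := ext_adj hR h γ γ
  rw [hR.B_comm] at h1
  simp only [Sz_ap, B_Bl hR, map_add] at *
  omega

theorem neg_of (h : Ext R w) (e : R.B γ (w γ) ≤ -R.B γ γ) : w γ = -γ := by
  refine eq_neg_of_add_eq_zero_left (eq_zero hR ?_)
  have h1 := ext_B hR h γ γ
  have h2 := hR.B_comm (w γ) γ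
  simp only [B_Bl hR, map_add, LinearMap.add_apply] at *
  omega

theorem topZ (h : Tp R w x c) (γ : R.Q) : (R.B γ (w γ) : ℝ) ≤ c * R.B γ γ := by
  simpa only [ac_cv, ip_cv hR] using h.top (cv R γ)

theorem eig3 (h : Ext R w) (ht : ∀ γ, 2 * R.B γ (w γ) + R.B γ γ ≤ 0) :
    Cyz R 3 w ∨ ∀ γ, w γ = -γ := by
  have k : ∀ j, w (R.α j) = -R.α j ∨ Sz w (R.α j) = -R.α j := fun j => by
    have h0 := hR.B_α_pos j
    have h1 := hR.pr_B (w (R.α j)) j
    have h2 := ht (R.α j)
    rw [hR.B_comm (w _)] at h1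
    by_cases e : R.pr (w (R.α j)) j ≤ -2
    · exact .inl (neg_of hR h (by nlinarith))
    refine .inr (eq_neg_of_add_eq_zero_left (eq_zero hR ?_))
    have h3 : R.B (R.α j) (Sz w (R.α j) + R.α j) = 0 := by
      have := Sz_quad hR h (R.α j)
      simp only [B_Bl hR, map_add] at *
      nlinarith
    generalize R.α j = a at *
    obtain ⟨d, hd⟩ : ∃ d, d = Sz w a + a := ⟨_, rfl⟩
    have h4 : ∀ m : ℤ, 2 * m * R.B d d + R.B d (Sz w d + d) ≤ 0 := fun m => by
      have := ht (m • a + d)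
      rw [← Sz_quad hR h] at this
      have e1 : R.B d d = R.B d (Sz w a) + R.B d a := by simp only [hd, B_Bl hR, map_add]
      have e2 := Sz_adj hR h a d
      have e3 := hR.B_comm (Sz w a) d
      have e4 := hR.B_comm a d
      simp only [B_Bl hR, map_add, map_smul, LinearMap.add_apply, LinearMap.smul_apply,
        smul_eq_mul] at *
      linear_combination this - m * m * h3 + 2 * m * e1 + m * (e2 - e3 - e4)
    rw [← hd]
    by_contra c
    have := h4 (|R.B d (Sz w d + d)| + 1)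
    have := neg_abs_le (R.B d (Sz w d + d))
    nlinarith [abs_nonneg (R.B d (Sz w d + d))]
  refine or_iff_not_imp_right.2 fun c γ => ?_
  have : ∀ j, Sz w (R.α j) = -R.α j := fun j => (k j).resolve_left fun hj => c fun γ => ?_
  · have e : w (Sz w γ) = w (-γ) :=
      congrArg w (LinearMap.congr_fun (end_ext (F := -1) this) γ)
    rw [Sz_ap, map_add, app_inv, map_neg] at e
    simp only [Finset.sum_range_succ, Finset.sum_range_zero, pow_succ, pow_zero, one_mul, mul_app,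
      one_app]
    linear_combination (exp := 1) e
  · refine LinearMap.congr_fun (end_ext (E := w.toLinearMap) (F := -1) fun i => ?_) γ
    refine hR.conn (fun j => w (R.α j) = -R.α j) j i hj fun i j hi e =>
      (k j).resolve_right fun hj => e ((B_zero_iff hR j i).1 ?_)
    have h1 := Sz_adj hR h (R.α j) (R.α i)
    have h2 : w⁻¹ (R.α i) = -R.α i := by
      rw [← neg_eq_iff_eq_neg, ← map_neg, ← hi, inv_app]
    rw [hj, Sz_ap, hi, h2] at h1
    simp only [B_Bl hR, map_add, map_neg, LinearMap.neg_apply] at *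
    omega

variable (hN : SL R N)
include hN

theorem ann (h : Ext R w) (ht : Tp R w x c) (hc : 2 * c ≤ 0.62) :
    (Sz w * Sz w + Sz w - 1) * ((Sz w + 2) * (Sz w * Sz w + Sz w)) = 0 := end_ext fun j => by
  by_contra e
  refine (Int.cast_le (R := ℝ).2 (hN.min hR e)).not_gt ?_
  have := spec (ipL R) (ip_comm hR) (fun _ => ip_pos hR) (Sr w)
    ((Sr w * Sr w + Sr w - 1) * ((Sr w + 2) * (Sr w * Sr w + Sr w))) (fun x y => by
      simp only [ipL_ap, Sr_ap, ip_add, add_ip, ip_adj hR h, ip_adj hR (ext_inv hR h), inv_inv,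
        add_comm]) (fun y t hy e => ⟨_, poly (t := t) ?_ ?_, ?_⟩) (cv R (R.α j)) fun e => by
      simpa [cv, α_self] using congrFun e j
  · simpa only [ipL_ap, Module.End.mul_apply, LinearMap.add_apply, LinearMap.sub_apply,
      Module.End.one_apply, Module.End.ofNat_apply, two_smul, Sr_cv, ← cv_add, ← cv_sub, ip_cv hR,
      hN _ (hR.simple j)] using this
  rotate_left 2
  · simp only [Module.End.mul_apply, LinearMap.add_apply, LinearMap.sub_apply,
      Module.End.one_apply, Module.End.ofNat_apply, two_smul, map_add, map_smul, e]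
    module
  all_goals
    have h0 := ip_pos hR hy
    have h1 := congrArg (ip R y) e
    have h2 := ip_nonneg hR (ac R w y + y)
    have h3 := ht.top y
    rw [Sr_ap, ip_add, ip_smul, ← ip_adj hR h, ip_comm hR (ac R w y)] at h1
    rw [ip_add, add_ip, add_ip, ip_ext hR h, ip_comm hR (ac R w y)] at h2
    nlinarith

theorem cls_rd (hP : ∀ w ∈ P, Ext R w) (sh : Sh R P) (hw : w ∈ P) {k : ℤ} (h0 : 0 ≤ k) (h1 : k ≤ 1)
    (h : ∀ γ, Sz w γ = -(k • γ)) : ∃ w' ∈ P, Rd R 5 w' := by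
  have cj : ∀ (u : R.Aut) γ, Sz (u * w * u⁻¹) γ = -(k • γ) := fun u γ => by
    have := congrArg u (h (u⁻¹ γ))
    rw [map_neg, map_smul, app_inv] at this
    simpa only [Sz_ap, _root_.mul_inv_rev, inv_inv, mul_app, map_add] using this
  have all : ∀ u ∈ R.W, u * w * u⁻¹ ∈ P := fun u hu => by
    obtain ⟨l, -, rfl⟩ := hR.exists_wd hu
    clear hu
    induction l with
    | nil => simpa [wd_nil] using hw
    | cons i l ih =>
      have := sh _ ih i (shift_le hR (hP _ ih) ((ext_sign hR (ext_inv hR (hP _ ih))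
        (hR.simple i)).imp_left fun e => ?_))
      · simpa [wd_cons, hR.sE_inv, mul_assoc] using this
      · rw [eq_sub_of_add_eq ((Sz_ap _ _).symm.trans (cj _ _))]
        exact sub_nonpos.2 ((neg_nonpos.2 (smul_nonneg h0 (α_nonneg i))).trans e)
  have E := hP w hw
  have q : ∀ γ ∈ R.Φ, 2 * R.B γ (w γ) = -(k * N) := fun γ hγ => by
    rw [← Sz_quad hR E, h, hR.B_comm, hR.B_neg, hR.B_smul, hN γ hγ]
  obtain ⟨γ, hγ, u, hu, i, j, e1, e2⟩ : ∃ γ ∈ R.Φ, ∃ u ∈ R.W, ∃ i j, u γ = R.α i ∧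
      u (w γ) = R.α j := by
    have s := hR.simple ⟨0, hR.pos⟩
    have s1 := ext_mem hR E s
    have s2 := ext_mem hR (ext_inv hR E) s
    have p := hN.pos hR
    rcases (hR.sign _ s1).2 with c | c
    · obtain ⟨u, hu, i, j, e1, e2⟩ := hN.pair hR ⟨0, hR.pos⟩ ⟨s1, c⟩ (by
        have := hN.pr hR (w (R.α ⟨0, hR.pos⟩)) ⟨0, hR.pos⟩
        rw [hR.B_comm, q _ s] at this
        nlinarith)
      exact ⟨_, s, u, hu, i, j, e1, e2⟩
    rcases (hR.sign _ s2).2 with c' | c'
    · obtain ⟨u, hu, i, j, e1, e2⟩ := hN.pair hR ⟨0, hR.pos⟩ ⟨s2, c'⟩ (by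
        have := hN.pr hR (w⁻¹ (R.α ⟨0, hR.pos⟩)) ⟨0, hR.pos⟩
        rw [← ext_B hR E, app_inv, q _ s] at this
        nlinarith)
      exact ⟨_, s2, u, hu, j, i, e2, by rwa [app_inv]⟩
    have a1 := hR.ht_pos ⟨hR.neg_mem s1, neg_nonneg.2 c⟩
    have a2 := hR.ht_pos ⟨hR.neg_mem s2, neg_nonneg.2 c'⟩
    have a3 := congrArg (fun γ => R.ht (-γ)) (h (R.α ⟨0, hR.pos⟩))
    simp only [Sz_ap, neg_add, neg_neg, ht_add, ht_smul, ht_α] at a3
    omega
  have f1 : (u * w * u⁻¹) (R.α i) = R.α j := by rw [← e1, mul_app, mul_app, inv_app, e2]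
  have f2 : (u * w * u⁻¹) (R.α j) = -(k • R.α j) - R.α i := by
    rw [← cj u, Sz_ap, ← f1, inv_app, add_sub_cancel_right]
  have f3 : R.A i j = -k ∧ R.A j i = -k := by
    have a1 := hN.pr hR (R.α i) j
    have a2 := hN.pr hR (R.α j) i
    rw [hR.B_comm, ← a1] at a2
    rw [← e1, ← e2, hR.B_inv hu, q γ hγ, e1, ← neg_mul] at a1
    rw [a1] at a2
    rw [pr_α] at a1 a2
    exact ⟨mul_right_cancel₀ (hN.pos hR).ne' a1, mul_right_cancel₀ (hN.pos hR).ne' a2⟩
  refine ⟨_, all u hu, .inr ⟨rfl, i, j, fun e => ?_, ?_⟩⟩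
  · rw [e, hR.diag] at f3
    omega
  obtain rfl | rfl : k = 1 ∨ k = 0 := by omega
  · exact .inl ⟨f3.1, f3.2, f1, by rw [f2]; module⟩
  · exact .inr ⟨f3.1, f1, by rw [f2]; module⟩

theorem eig5 (hD : ∀ π, Dg R π → π = 1) (hP : ∀ w ∈ P, Ext R w) (sh : Sh R P) (hw : w ∈ P)
    (ht : Tp R w x c) (hc : 2 * c ≤ 0.62) : Cyz R 5 w ∨ ∃ w' ∈ P, Rd R 5 w' := by
  have E := hP w hw
  have a := Sz_adj hR E
  have z := ann hR hN E ht hc
  simp only [B_Bl hR] at a
  rcases hN.split hR (E := (Sz w * Sz w + Sz w - 1) * (Sz w * Sz w + Sz w - 1))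
    (F := (1 - Sz w) * ((Sz w + 2) * (Sz w * Sz w + Sz w))) (by noncomm_ring)
    (by rw [← mul_zero ((Sz w * Sz w + Sz w - 1) * (1 - Sz w)), ← z]; noncomm_ring)
    (fun γ δ => by simp [B_Bl hR, a]) with h | h
  · refine .inl fun γ => ?_
    have e : (Sz w * Sz w + Sz w - 1) (w (w γ)) = 0 := eq_zero hR (by
      have := LinearMap.congr_fun h (w (w γ))
      generalize w (w γ) = δ at *
      rw [show R.B _ _ = R.B δ (((Sz w * Sz w + Sz w - 1) * (Sz w * Sz w + Sz w - 1)) δ) by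
        simp [B_Bl hR, a], this]
      simp [B_Bl hR])
    simp only [Module.End.mul_apply, LinearMap.add_apply, LinearMap.sub_apply, Sz_ap, map_add,
      Module.End.one_apply, inv_app, app_inv] at e
    simp only [Finset.sum_range_succ, Finset.sum_range_zero, pow_succ, pow_zero, one_mul, mul_app,
      one_app]
    linear_combination (exp := 1) e
  replace h : (Sz w + 2) * (Sz w * Sz w + Sz w) = 0 := by
    have : ∀ S : Module.End ℤ R.Q, (S + 2) * (S * S + S) = (S * S + S - 1) * ((S * S + S - 1) *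
      ((S + 2) * (S * S + S))) + (1 - S) * ((S + 2) * (S * S + S)) * ((S + 2) * (S * S + S)) :=
      fun S => by noncomm_ring
    rw [this, z, h, mul_zero, zero_mul, add_zero]
  right
  rcases hN.split hR (E := (Sz w + 1) * (Sz w + 1)) (F := -(Sz w * (Sz w + 2))) (by noncomm_ring)
    (by rw [← mul_zero (-(Sz w + 1)), ← h]; noncomm_ring)
    (fun γ δ => by simp [B_Bl hR, a]) with h | h
  · refine cls_rd hR hN hP sh hw zero_le_one le_rfl fun γ => ?_
    refine eq_neg_of_add_eq_zero_left (eq_zero hR ?_)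
    rw [show R.B _ _ = R.B γ (((Sz w + 1) * (Sz w + 1)) γ) by simp [B_Bl hR, a], h]
    simp [B_Bl hR]
  replace h : ∀ γ, Sz w (Sz w γ + (γ + γ)) = 0 := fun γ => by
    simpa [two_smul] using LinearMap.congr_fun (neg_eq_zero.1 h) γ
  have rd : ∀ j, R.B (R.α j) (w (R.α j)) ≤ -N → ∃ w' ∈ P, Rd R 5 w' := fun j e =>
    ⟨w, hw, .inl ⟨⟨j, neg_of hR E (by rwa [hN _ (hR.simple j)])⟩, fun e => by omega⟩⟩
  have h1 : Sr w (Sr w x + (x + x)) = 0 := by
    rw [← sum_cv x]
    simp only [map_sum, map_smul, ← Finset.sum_add_distrib, ← smul_add, Sr_cv, ← cv_add, h]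
    simp [show cv R 0 = 0 from funext fun _ => Int.cast_zero]
  have h2 : Sr w x = (2 * c) • x := ht.eig
  simp only [map_add, map_smul, h2, smul_smul, ← add_smul, smul_eq_zero, ht.ne, or_false] at h1
  rcases mul_eq_zero.1 (show c * (c + 1) = 0 by linarith) with rfl | h3
  swap
  · have := topZ hR ht (R.α ⟨0, hR.pos⟩)
    rw [eq_neg_of_add_eq_zero_left h3, hN _ (hR.simple _), neg_one_mul] at this
    exact rd _ (by exact_mod_cast this)
  by_cases g : ∃ j, ip R x (cv R (R.α j)) = 0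
  · obtain ⟨j, g⟩ := g
    have := ht.gen _ (hR.simple j) g (cv R (Sz w (R.α j) + (R.α j + R.α j))) (by
      rw [← Sr_ap, Sr_cv, h]
      simp [show cv R 0 = 0 from funext fun _ => Int.cast_zero])
    rw [ip_cv hR, Int.cast_eq_zero, hR.B_add, hR.B_add, hR.B_comm (Sz w _), Sz_quad hR E,
      hN _ (hR.simple j)] at this
    exact rd j (by omega)
  push Not at g
  have h4 : ac R w⁻¹ (ac R w⁻¹ x) = (-1 : ℝ) • x := by
    have := congrArg (ac R w⁻¹) ht.eig
    rw [ac_add, ac_inv, mul_zero, zero_smul, P011UHN.ac_zero] at this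
    rw [neg_one_smul, eq_neg_of_add_eq_zero_right this]
  have E2 := ext_mul hR E E
  have W2 : w * w ∈ R.W := by
    obtain ⟨a, ha, π, hπ, e⟩ := E2
    rwa [e, hD π hπ, pa_one, mul_one]
  have L : R.Lg Set.univ (w * w) := ⟨W2, fun j _ => (ext_sign hR E2 (hR.simple j)).resolve_left
    fun e => by
      have := P011UHN.Dm.nonneg ht.dom e
      rw [mul_app, ← ac_cv, ← ac_cv, ip_comm hR, ip_adj hR E, ip_adj hR E, h4, ip_smul,
        ip_comm hR] at this
      exact g j (le_antisymm (by linarith) (ht.dom j))⟩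
  choose f _ hf using fun j => hR.Lg_α L (Set.mem_univ j)
  have inj : Function.Injective f := fun i j e =>
    α_inj ((w * w).injective (by rw [hf, hf, e]))
  have := hD (Equiv.ofBijective f (Finite.injective_iff_bijective.1 inj)) fun i j => by
    have h1 := hN.pr hR (R.α i) j
    rw [← hR.B_inv W2, hf, hf, hR.B_neg, hR.B_comm, hR.B_neg, neg_neg, hR.B_comm, ← hN.pr hR, pr_α,
      pr_α] at h1
    exact (mul_right_cancel₀ (hN.pos hR).ne' h1).symm
  refine cls_rd hR hN hP sh hw le_rfl zero_le_one fun γ => ?_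
  have e : w (w (w⁻¹ γ)) = -w⁻¹ γ := LinearMap.congr_fun (end_ext (E := (w * w).toLinearMap)
    (F := -1) fun j => (hf j).trans (congrArg (fun i => -R.α i) (DFunLike.congr_fun this j))) _
  rw [app_inv] at e
  simp [Sz_ap, e]

omit hR hN in
theorem eig : EIG := fun R hR l hl P hP sh w hw x c ht hc => by
  rcases hc with ⟨rfl, hc⟩ | ⟨rfl, hc⟩
  · refine (eig3 hR (hP w hw) fun γ => ?_).imp_right fun h =>
      ⟨w, hw, .inl ⟨⟨⟨0, hR.pos⟩, h _⟩, fun _ => h⟩⟩
    have h1 := topZ hR ht γ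
    have h2 : (0 : ℝ) ≤ R.B γ γ := Int.cast_nonneg_iff.2 (B_nonneg hR γ)
    exact_mod_cast (by nlinarith : (2 * R.B γ (w γ) + R.B γ γ : ℝ) ≤ 0)
  · obtain ⟨⟨N, hN⟩, hD⟩ := sl_E8 hR (hl.resolve_left (by decide)).2
    exact eig5 hR hN hD hP sh hw ht (hc.elim (fun _ => by linarith) fun _ => by nlinarith)

end Vale.Agent.P011UD7
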