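import Vale.Agent.P011UD7.Sl

/-!
Subsystems of type `A` which are rotated by an elliptic element of prime order.
-/

set_option autoImplicit false
set_option linter.all false

namespace Vale.Agent.P011UD7

open Matrix Vale.Agent.P183CH Vale.Agent.P183CH.RS Vale.Agent.P011U Vale.Agent.P011UHB
open Vale.Agent.P011UC (pa)

variable {R : RS} {w : R.Aut} {β γ δ : R.Q} {N : ℤ} {l : ℕ} [NeZero l]

/-- partial sums of an orbit -/
def ps (w : R.Aut) (β : R.Q) (i : ℕ) : R.Q := ∑ m ∈ Finset.range i, (w ^ m) β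

/-- the subsystem of an orbit -/
def sy (l : ℕ) (w : R.Aut) (β : R.Q) (i j : Fin l) : R.Q := ps w β j - ps w β i

/-- the lattice of an orbit -/
def La (l : ℕ) (w : R.Aut) (β : R.Q) : Submodule ℤ R.Q :=
  Submodule.span ℤ (Set.range fun i : Fin l => ps w β i)

/-- The partial sums have the scalar products of `e 0 - e i`. -/
def Gr (l : ℕ) [NeZero l] (w : R.Aut) (β : R.Q) : Prop :=
  ∀ i j : Fin l, 2 * R.B (ps w β i) (ps w β j) = R.B β β *
    (1 - (if i = 0 then 1 else 0) - (if j = 0 then 1 else 0) + if i = j then 1 else 0)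

theorem ps_succ (w : R.Aut) (β : R.Q) (i : ℕ) : ps w β (i + 1) = w (ps w β i) + β := by
  simp only [ps, Finset.sum_range_succ', map_sum, pow_succ', mul_app, pow_zero, one_app]

theorem ps_zero (w : R.Aut) (β : R.Q) : ps w β 0 = 0 := rfl

theorem sy_mem (i j : Fin l) : sy l w β i j ∈ La l w β :=
  sub_mem (Submodule.subset_span ⟨j, rfl⟩) (Submodule.subset_span ⟨i, rfl⟩)

theorem sy_zero (i : Fin l) : sy l w β 0 i = ps w β i := sub_zero _

theorem val_one (h : 1 < l) : ((1 : Fin l) : ℕ) = 1 := by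
  rw [Fin.val_one', Nat.mod_eq_of_lt h]

theorem sy_one (h : 1 < l) : sy l w β 0 1 = β := by
  rw [sy_zero, val_one h, ps_succ, ps_zero, map_zero, zero_add]

theorem rt (h : 1 < l) (hc : Cyz R l w) (β : R.Q) : Rt R w (sy l w β) 1 := by
  have k : ∀ i : Fin l, ps w β (i + 1 : Fin l) = w (ps w β i) + β := fun i => by
    rw [← ps_succ, Fin.val_add, val_one h]
    rcases (Nat.succ_le_of_lt i.2).eq_or_lt with e | e
    · rw [show i.1 + 1 = l from e, Nat.mod_self]
      exact (hc β).symm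
    · rw [Nat.mod_eq_of_lt e]
  refine ⟨fun e => ?_, fun i j => by rw [sy, sy, k, k, map_sub, add_sub_add_right_eq_sub]⟩
  exact one_ne_zero ((val_one h).symm.trans (congrArg Fin.val e))

theorem La_w (h : 1 < l) (hc : Cyz R l w) (e : δ ∈ La l w β) : w δ ∈ La l w β :=
  (Submodule.span_le (p := (La l w β).comap w.toLinearMap)).2 (by
    rintro _ ⟨i, rfl⟩
    show w (ps w β i) ∈ La l w β
    rw [← sy_zero, (rt h hc β).2]
    exact sy_mem _ _) e

theorem not_dvd (y : Fin l → ℤ) (h0 : y 0 = 0) (h1 : ∀ i j, y i - y j ≤ 1) (h2 : ∃ i, y i ≠ 0) :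
    ¬(l : ℤ) ∣ ∑ i, y i := by
  have k : ∀ y : Fin l → ℤ, y 0 = 0 → (∀ i j, y i - y j ≤ 1) → ∀ i, 0 < y i →
      ¬(l : ℤ) ∣ ∑ i, y i := fun y h0 h1 i hi e => by
    have a := fun j => h1 j 0
    have := a i
    refine (Int.le_of_dvd (Finset.sum_pos' (fun j _ => by have := h1 i j; omega)
      ⟨i, Finset.mem_univ _, hi⟩) e).not_gt ?_
    simpa using Finset.sum_lt_sum (s := Finset.univ) (f := y) (g := fun _ => 1)
      (fun j _ => by have := a j; omega) ⟨0, Finset.mem_univ _, by omega⟩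
  obtain ⟨i, hi⟩ := h2
  rcases hi.lt_or_gt with e | e
  · rw [← dvd_neg, ← Finset.sum_neg_distrib]
    exact k _ (by simpa) (fun i j => by have := h1 j i; omega) i (neg_pos.2 e)
  · exact k y h0 h1 i e

variable (hR : R.Ok)
include hR

theorem Gr.sy (h : Gr l w β) (i j i' j' : Fin l) : 2 * R.B (sy l w β i j) (sy l w β i' j') =
    R.B β β * ((if j = j' then 1 else 0) - (if j = i' then 1 else 0) - (if i = j' then 1 else 0) +
      if i = i' then 1 else 0) := by
  have h1 := h j j'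
  have h2 := h j i'
  have h3 := h i j'
  have h4 := h i i'
  simp only [P011UD7.sy, B_Bl hR, map_sub, LinearMap.sub_apply] at *
  linear_combination h1 - h2 - h3 + h4

theorem Gr.len (h : Gr l w β) {i j : Fin l} (e : i ≠ j) :
    R.B (P011UD7.sy l w β i j) (P011UD7.sy l w β i j) = R.B β β := by
  have := h.sy hR i j i j
  simp only [e, e.symm, if_true, if_false] at this
  omega

theorem Gr.as (h : Gr l w β) (hβ : β ∈ R.Φ) (hm : ∀ j : Fin l, j ≠ 0 → ps w β j ∈ R.Φ)
    (hl : ∀ γ ∈ R.Φ, γ ∈ La l w β → R.B γ γ ≤ R.B β β) : As R (P011UD7.sy l w β) := by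
  refine ⟨fun i j e => ?_, fun i j m => by simp [P011UD7.sy],
    fun i j i' j' e e' => (h.len hR e).trans (h.len hR e').symm,
    fun i j i' j' a b e e' c ha hb hγ => ?_⟩
  · by_cases hi : i = 0
    · rw [hi, sy_zero]
      exact hm j (hi ▸ e.symm)
    by_cases hj : j = 0
    · simpa [hj, P011UD7.sy, ps_zero] using hR.neg_mem (hm i hi)
    rw [P011UD7.sy, sub_eq_add_neg]
    refine add_mem hR (hm j hj) (hR.neg_mem (hm i hi)) ?_
    have h1 := h j i
    have h2 := h i i
    simp only [B_Bl hR, map_neg, LinearMap.neg_apply, hi, hj, e.symm, if_true, if_false] at *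
    omega
  have h1 := hl _ hγ (AddMemClass.add_mem (nsmul_mem (sy_mem i j) a) (nsmul_mem (sy_mem i' j') b))
  have h2 := h.len hR e
  have h3 := h.len hR e'
  have h4 := h.sy hR i j i' j'
  have h5 := hR.B_comm (P011UD7.sy l w β i' j') (P011UD7.sy l w β i j)
  have h0 := B_root hR hβ
  obtain ⟨k, hk, k1, k2⟩ : ∃ k : ℤ, ((if j = j' then 1 else 0) - (if j = i' then 1 else 0) -
      (if i = j' then 1 else 0) + if i = i' then 1 else 0) = k ∧ -1 ≤ k ∧
      (k < 0 → j = i' ∨ j' = i) := ⟨_, rfl, by split_ifs <;> simp_all, by split_ifs <;> simp_all⟩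
  simp only [B_Bl hR, ← natCast_zsmul, map_add, map_smul, LinearMap.add_apply, LinearMap.smul_apply,
    smul_eq_mul, hk] at h0 h1 h2 h3 h4 h5
  have h6 : (a : ℤ) * a + b * b + k * (a * b) ≤ 1 :=
    le_of_mul_le_mul_left (by linear_combination h1 - a * a * h2 - b * b * h3 - a * b * (h4 + h5)) h0
  have a1 : (1 : ℤ) ≤ a := by omega
  have b1 : (1 : ℤ) ≤ b := by omega
  have h7 : (a : ℤ) * b ≤ 1 := by nlinarith [sq_nonneg ((a : ℤ) - b), one_le_mul_of_one_le_of_one_le a1 b1]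
  have a2 : (a : ℤ) = 1 := by nlinarith
  have b2 : (b : ℤ) = 1 := by nlinarith
  rw [a2, b2] at h6
  exact ⟨by omega, by omega, k2 (by omega)⟩

theorem exists_out (hβ : β ∈ R.Φ) (h : 1 < l) (c : ¬∀ j, R.α j ∈ La l w β) :
    ∃ j, R.α j ∉ La l w β ∧ ∃ i : Fin l, R.B (ps w β i) (R.α j) ≠ 0 := by
  by_contra e
  push Not at e
  refine c (all_of hR (· ∈ La l w β) (hR.sign β hβ).1 fun j => or_iff_not_imp_left.2 fun hj => ?_)
  have : ∀ δ ∈ La l w β, R.B (R.α j) δ = 0 := fun δ hδ =>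
    LinearMap.mem_ker.1 ((Submodule.span_le (p := LinearMap.ker (Bl hR (R.α j)))).2 (by
      rintro _ ⟨i, rfl⟩
      exact LinearMap.mem_ker.2 ((hR.B_comm _ _).trans (e j hj i))) hδ)
  exact ⟨this β (by simpa only [sy_one h] using sy_mem (w := w) (β := β) (0 : Fin l) 1), this⟩

theorem second (h : 1 < l) (hc : Cyz R l w) (g : Gr l w γ) (a : As R (sy l w β))
    (hl : R.B γ γ ≤ R.B β β) (h1 : β ∉ La l w γ) (h2 : ∃ i : Fin l, R.B (ps w γ i) β ≠ 0) :
    ∃ (ρ' : Fin l → Fin l → R.Q) (s' : Fin l) (y : Fin l → ℤ), As R ρ' ∧ Rt R w ρ' s' ∧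
      (∀ i j, Cp R (sy l w γ i j) (ρ' 0 s') (y i - y j)) ∧ ¬(l : ℤ) ∣ ∑ i, y i := by
  have hβ : β ∈ R.Φ := sy_one (w := w) (β := β) h ▸ a.mem 0 1 (rt h hc β).1.symm
  choose n hn _ using fun i : Fin l => exists_cp hR (ps w γ i) hβ
  have k : ∀ i j, Cp R (sy l w γ i j) β (-n i - -n j) := fun i j => by
    have h1 := hn i
    have h2 := hn j
    simp only [Cp, sy, B_Bl hR, map_sub, LinearMap.sub_apply] at *
    linear_combination h2 - h1
  refine ⟨_, 1, fun i => -n i, a, rt h hc β, by rwa [sy_one h], not_dvd _ ?_ (fun i j => ?_) ?_⟩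
  · exact neg_eq_zero.2 (cp_uniq hR hβ (hn 0) (by simp [Cp, ps_zero, B_Bl hR]))
  · by_cases e : i = j
    · simp [e]
    rcases cp_le hR (k i j) hβ ((g.len hR e).trans_le hl) with c | c | c
    · exact c.2
    · exact (h1 (c ▸ sy_mem i j)).elim
    · exact (h1 (neg_mem_iff.1 (c ▸ sy_mem i j))).elim
  · obtain ⟨i, hi⟩ := h2
    refine ⟨i, fun e => hi ?_⟩
    have := hn i
    rw [Cp, neg_eq_zero.1 e] at this
    omega

theorem rank_le {m : ℕ} (v : Fin m → R.Q) (h : ∀ j, R.α j ∈ Submodule.span ℤ (Set.range v)) :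
    R.r ≤ m := by
  have : Submodule.span ℤ (Set.range v) = ⊤ := eq_top_iff.2 fun γ _ =>
    eq_sum γ ▸ Submodule.sum_mem _ fun j _ => Submodule.smul_mem _ _ (h j)
  simpa using finrank_le_of_span_eq_top this

variable (E : Ext R w)
include E

theorem b3 (hc : Cyz R 3 w) (β : R.Q) : w (w β) = -β - w β ∧ 2 * R.B β (w β) = -R.B β β := by
  have h := hc β
  simp only [Finset.sum_range_succ, Finset.sum_range_zero, pow_succ, pow_zero, one_mul, mul_app,
    one_app] at h
  have h1 : w (w β) = -β - w β := by linear_combination (exp := 1) h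
  have h2 := ext_B hR E β (w β)
  have h3 := ext_B hR E β β
  have h4 := hR.B_comm (w β) β
  rw [h1] at h2
  simp only [B_Bl hR, map_sub, map_neg] at *
  exact ⟨h1, by omega⟩

theorem gr3 (hc : Cyz R 3 w) (β : R.Q) : Gr 3 w β := fun i j => by
  have h1 := (b3 hR E hc β).2
  have h3 := ext_B hR E β β
  have h4 := hR.B_comm (w β) β
  simp only [B_Bl hR] at *
  fin_cases i <;> fin_cases j <;> simp [ps_succ, ps_zero] <;> omega

omit hR E in
theorem la3 (h : γ ∈ La 3 w β) : γ ∈ Submodule.span ℤ (Set.range ![β, w β]) := by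
  refine Submodule.span_le.2 ?_ h
  have h1 : β ∈ Submodule.span ℤ (Set.range ![β, w β]) := Submodule.subset_span ⟨0, rfl⟩
  have h2 : w β ∈ Submodule.span ℤ (Set.range ![β, w β]) := Submodule.subset_span ⟨1, rfl⟩
  rintro _ ⟨i, rfl⟩
  fin_cases i
  exacts [zero_mem _, by simpa [ps_succ, ps_zero] using h1,
    by simpa [ps_succ, ps_zero] using AddMemClass.add_mem h2 h1]

theorem len3 (hc : Cyz R 3 w) (hβ : β ∈ R.Φ) (hn : β - w β ∉ R.Φ) (hγ : γ ∈ R.Φ)
    (h : γ ∈ La 3 w β) : R.B γ γ = R.B β β := by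
  obtain ⟨v, rfl⟩ := (Submodule.mem_span_range_iff_exists_fun ℤ).1 (la3 h)
  simp only [Fin.sum_univ_two, cons_val_zero, cons_val_one] at *
  generalize v 0 = m at *
  generalize v 1 = n at *
  obtain ⟨e, h1⟩ := b3 hR E hc β
  have s : ∀ m n : ℤ, m • β + n • w β ∉ R.Φ → (-n) • β + (m - n) • w β ∉ R.Φ ∧
      (-m) • β + (-n) • w β ∉ R.Φ := fun m n c => ⟨fun d => c (by
        have := ext_mem hR (ext_inv hR E) d
        rwa [show (-n) • β + (m - n) • w β = w (m • β + n • w β) by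
          rw [map_add, map_smul, map_smul, e]; module, inv_app] at this),
      fun d => c (by simpa [add_comm] using hR.neg_mem d)⟩
  have s1 : (1 : ℤ) • β + (-1 : ℤ) • w β ∉ R.Φ := by simpa [← sub_eq_add_neg]
  have s2 := s _ _ s1
  have s3 := s _ _ s2.1
  have s4 := s _ _ s3.1
  obtain ⟨a, ha, -⟩ := exists_cp hR β hγ
  obtain ⟨b, hb, -⟩ := exists_cp hR (w β) hγ
  have h0 := B_root hR hβ
  have h2 := B_root hR hγ
  have h3 := ext_B hR E β β
  have h4 := hR.B_comm (w β) β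
  have h5 : R.B (m • β + n • w β) (m • β + n • w β) = R.B β β * (m * m - m * n + n * n) := by
    simp only [B_Bl hR, map_add, map_smul, LinearMap.add_apply, LinearMap.smul_apply,
      smul_eq_mul] at *
    linear_combination m * n * (h1 + h4) + n * n * h3
  rw [Cp, h5] at ha hb
  rw [h5] at h2 ⊢
  simp only [B_Bl hR, map_add, map_smul, smul_eq_mul] at ha hb h0 h1 h2 h3 h4 ⊢
  have d0 := (mul_pos_iff_of_pos_left h0).1 h2
  have ha' : a * (m * m - m * n + n * n) = 2 * m - n :=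
    mul_left_cancel₀ h0.ne' (by linear_combination ha + n * h1)
  have hb' : b * (m * m - m * n + n * n) = 2 * n - m :=
    mul_left_cancel₀ h0.ne' (by linear_combination hb + m * h1 + 2 * m * h4 + 2 * n * h3)
  have d1 : (m * m - m * n + n * n) * (a * a + a * b + b * b) = 3 := mul_left_cancel₀ d0.ne' (by
    linear_combination (a * (m * m - m * n + n * n) + 2 * m - n + b * (m * m - m * n + n * n)) * ha' +
      (b * (m * m - m * n + n * n) + m + n) * hb')
  have d2 := Int.le_of_dvd (by decide) (Dvd.intro _ d1)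
  have : -2 ≤ m ∧ m ≤ 2 ∧ -2 ≤ n ∧ n ≤ 2 := by
    refine ⟨?_, ?_, ?_, ?_⟩ <;> nlinarith [sq_nonneg (m - 2 * n), sq_nonneg (n - 2 * m)]
  obtain ⟨m1, m2, n1, n2⟩ := this
  generalize a * a + a * b + b * b = t at d1
  interval_cases m <;> interval_cases n <;> first
    | omega
    | exact absurd hγ s1
    | exact absurd hγ s2.1
    | exact absurd hγ s2.2
    | exact absurd hγ s3.1
    | exact absurd hγ s3.2
    | exact absurd hγ s4.2

theorem as3 (hc : Cyz R 3 w) (hβ : β ∈ R.Φ) (hn : β - w β ∉ R.Φ) : As R (sy 3 w β) :=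
  (gr3 hR E hc β).as hR hβ (fun j hj => by
    fin_cases j
    · exact absurd rfl hj
    · simpa [ps_succ, ps_zero]
    · simpa [ps_succ, ps_zero] using add_mem hR (ext_mem hR E hβ) hβ
        (hR.B_comm β _ ▸ (b3 hR E hc β).2)) fun γ hγ h => (len3 hR E hc hβ hn hγ h).le

theorem a2_of (hc : Cyz R 3 w) (hβ : β ∈ R.Φ) (hn : β - w β ∉ R.Φ) (h : ∀ j, R.α j ∈ La 3 w β) :
    R.r = 2 ∧ TyA R := by
  have h1 := rank_le hR _ fun j => la3 (h j)
  have h0 := hR.pos
  have h2 : R.r = 2 := by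
    by_contra c
    have s : ∀ i j : Fin R.r, i = j := fun i j => Fin.ext (by have := i.2; have := j.2; omega)
    have k := fun γ hγ => hR.eq_of_coord (γ := γ) (i := ⟨0, h0⟩) hγ fun j hj => absurd (s _ _) hj
    have h3 := (b3 hR E hc β).2
    have h4 := hR.B_α_pos ⟨0, h0⟩
    rcases k _ (ext_mem hR E hβ) with e | e <;> rw [e] at h3 <;> rcases k _ hβ with e | e <;>
      simp only [e, B_Bl hR, map_neg, LinearMap.neg_apply] at h3 h4 <;> omega
  refine ⟨h2, 2, finCongr h2, fun i j => ?_⟩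
  have k : i ≠ j → R.A i j = -1 := fun e => by
    have h3 := hR.A_nonpos e
    have h4 : R.A i j ≠ 0 := fun z => e (hR.conn (· = j) j i rfl fun a b ha hb => by
      by_contra c
      rw [ha, show b = i from Fin.ext (by
        have := i.2; have := j.2; have := b.2; have := Fin.val_ne_of_ne e
        have := Fin.val_ne_of_ne c; omega)] at hb
      exact hb z)
    rcases cp_le hR (hR.pr_B (R.α i) j) (hR.simple j) (by
      rw [len3 hR E hc hβ hn (hR.simple i) (h i), len3 hR E hc hβ hn (hR.simple j) (h j)])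
      with c | c | c
    · rw [pr_α] at c
      omega
    · exact absurd (α_inj c) e
    · exact (hR.not_both (hR.simple i) (α_nonneg i) (c ▸ neg_nonpos.2 (α_nonneg j))).elim
  by_cases e : i = j
  · simp [e, hR.diag, CartanMatrix.A]
  have := i.2
  have := j.2
  have := Fin.val_ne_of_ne e
  simp only [k e, CartanMatrix.A, of_apply, Fin.ext_iff, finCongr_apply, Fin.val_cast]
  split_ifs <;> omega

theorem b5 (hN : SL R N) (hc : Cyz R 5 w) (hβ : β ∈ R.Φ) :
    w (w (w (w β))) = -β - w β - w (w β) - w (w (w β)) ∧ R.B β (w (w (w β))) = R.B β (w (w β)) ∧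
    ((2 * R.B β (w β) = -N ∧ R.B β (w (w β)) = 0) ∨
      (R.B β (w β) = 0 ∧ 2 * R.B β (w (w β)) = -N)) := by
  have h := hc β
  simp only [Finset.sum_range_succ, Finset.sum_range_zero, pow_succ, pow_zero, one_mul, mul_app,
    one_app] at h
  have h1 : w (w (w (w β))) = -β - w β - w (w β) - w (w (w β)) := by linear_combination (exp := 1) h
  have m1 := ext_mem hR E hβ
  have m2 := ext_mem hR E m1
  have n0 := hN _ hβ
  have n1 := hN _ m1
  have n2 := hN _ m2
  have a1 := ext_B hR E β (w β)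
  have a2 := ext_B hR E β (w (w β))
  have a3 := ext_B hR E β (w (w (w β)))
  have a4 := ext_B hR E (w β) (w (w β))
  have a5 := ext_B hR E (w β) (w (w (w β)))
  have c1 := hR.B_comm (w β) β
  have c2 := hR.B_comm (w (w β)) β
  have c3 := hR.B_comm (w (w β)) (w β)
  have p := hN.pos hR
  obtain ⟨a, ha, -⟩ := exists_cp hR (w β) hβ
  obtain ⟨b, hb, -⟩ := exists_cp hR (w (w β)) hβ
  have r1 := cp_le hR ha hβ (by rw [n0, n1])
  have r2 := cp_le hR hb hβ (by rw [n0, n2])
  rw [h1] at a3 a5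
  rw [Cp, n0] at ha hb
  simp only [B_Bl hR, map_sub, map_neg] at *
  refine ⟨h1, by omega, ?_⟩
  replace r1 : -1 ≤ a ∧ a ≤ 1 := r1.resolve_right (by
    rintro (e | e) <;> simp only [e, map_neg, LinearMap.neg_apply, neg_neg] at * <;> omega)
  have : a + b = -1 := mul_right_cancel₀ p.ne' (by rw [add_mul]; omega)
  replace r2 : -1 ≤ b ∧ b ≤ 1 := r2.resolve_right (by
    rintro (e | e) <;> simp only [e, map_neg, LinearMap.neg_apply, neg_neg] at * <;> omega)
  obtain ⟨rfl, rfl⟩ | ⟨rfl, rfl⟩ : (a = -1 ∧ b = 0) ∨ (a = 0 ∧ b = -1) := by omega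
  exacts [.inl (by omega), .inr (by omega)]

theorem as5 (hN : SL R N) (hc : Cyz R 5 w) (hβ : β ∈ R.Φ) (h : 2 * R.B β (w β) = -N) :
    Gr 5 w β ∧ As R (sy 5 w β) := by
  obtain ⟨h1, h2, h3⟩ := b5 hR E hN hc hβ
  have m1 := ext_mem hR E hβ
  have m2 := ext_mem hR E m1
  have m3 := ext_mem hR E m2
  have n0 := hN _ hβ
  have n1 := hN _ m1
  have n2 := hN _ m2
  have n3 := hN _ m3
  have a1 := ext_B hR E β (w β)
  have a2 := ext_B hR E β (w (w β))
  have a4 := ext_B hR E (w β) (w (w β))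
  have c1 := hR.B_comm (w β) β
  have c2 := hR.B_comm (w (w β)) β
  have c3 := hR.B_comm (w (w β)) (w β)
  have c4 := hR.B_comm (w (w (w β))) β
  have c5 := hR.B_comm (w (w (w β))) (w β)
  have c6 := hR.B_comm (w (w (w β))) (w (w β))
  have p := hN.pos hR
  have g : Gr 5 w β := fun i j => by
    simp only [B_Bl hR] at *
    fin_cases i <;> fin_cases j <;> simp [ps_succ, ps_zero] <;> omega
  have q2 := add_mem hR m1 hβ (by omega)
  have q3 := add_mem hR (ext_mem hR E q2) hβ (by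
    simp only [B_Bl hR, map_add, LinearMap.add_apply] at *; omega)
  have q4 := add_mem hR (ext_mem hR E q3) hβ (by
    simp only [B_Bl hR, map_add, LinearMap.add_apply] at *; omega)
  refine ⟨g, g.as hR hβ (fun j hj => ?_) fun γ hγ _ => by rw [hN γ hγ, n0]⟩
  fin_cases j
  exacts [absurd rfl hj, by simpa [ps_succ, ps_zero], by simpa [ps_succ, ps_zero] using q2,
    by simpa [ps_succ, ps_zero] using q3, by simpa [ps_succ, ps_zero] using q4]

theorem sel5 (hN : SL R N) (hc : Cyz R 5 w) (hβ : β ∈ R.Φ) :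
    ∃ γ ∈ R.Φ, 2 * R.B γ (w γ) = -N ∧ (β = γ ∨ β = -(γ + w γ)) := by
  obtain ⟨h1, h2, h3 | h3⟩ := b5 hR E hN hc hβ
  · exact ⟨β, hβ, h3.1, .inl rfl⟩
  have m2 := ext_mem hR E (ext_mem hR E hβ)
  refine ⟨_, ext_mem hR E (add_mem hR m2 hβ (by rw [hR.B_comm, h3.2, hN _ hβ])), ?_,
    .inr (by simp only [map_add, h1]; module)⟩
  have a1 := ext_B hR E β (w β)
  have a4 := ext_B hR E (w β) (w (w β))
  have c3 := hR.B_comm (w (w β)) (w β)
  rw [ext_B hR E]
  simp only [B_Bl hR, map_add, LinearMap.add_apply] at *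
  omega

omit hR E in
theorem enc : ENC := fun R hR l _ hl hA w E hc => by
  rcases hl with rfl | ⟨rfl, hl⟩
  · by_cases c : ∃ β ∈ R.Φ, β - w β ∈ R.Φ
    · obtain ⟨β, hβ, h⟩ := c
      have e := (b3 hR E hc β).1
      have m := ext_mem hR E hβ
      refine ⟨_, 1, as3 hR E hc h fun z => ?_, rt (by decide) hc _,
        .inl ⟨![β, w β, w (w β)], fun i => ?_, fun i j => ?_⟩⟩
      · rw [show β - w β - w (β - w β) = (-3 : ℤ) • w β by rw [map_sub, e]; module] at z
        have p := B_root hR m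
        rcases hR.reduced z m one_ne_zero (one_smul _ _) with k | k <;>
          have := congrArg (R.B · (w β)) k <;> simp only [hR.B_smul, hR.B_neg] at this <;> omega
      · fin_cases i
        exacts [⟨hβ, rfl⟩, ⟨m, rfl⟩, ⟨ext_mem hR E m, by simp [e]; abel⟩]
      · fin_cases i <;> fin_cases j <;> simp [sy, ps_succ, ps_zero]
    push Not at c
    obtain ⟨γ, hγ, hm⟩ := R.Φ.exists_min_image (fun γ => R.B γ γ) ⟨_, hR.simple ⟨0, hR.pos⟩⟩
    obtain ⟨j, h1, h2⟩ := exists_out hR hγ (by decide) fun h => hA (a2_of hR E hc hγ (c γ hγ) h)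
    exact ⟨_, 1, as3 hR E hc hγ (c γ hγ), rt (by decide) hc _, .inr (second hR (by decide) hc
      (gr3 hR E hc γ) (as3 hR E hc (hR.simple j) (c _ (hR.simple j))) (hm _ (hR.simple j)) h1 h2)⟩
  obtain ⟨N, hN⟩ := (sl_E8 hR hl).1
  obtain ⟨γ, hγ, g, -⟩ := sel5 hR E hN hc (hR.simple ⟨0, hR.pos⟩)
  obtain ⟨j, h1, i, h2⟩ := exists_out (l := 5) (w := w) hR hγ (by decide) fun h => by
    obtain ⟨e, -⟩ := hl
    have := rank_le hR _ h
    have := Fintype.card_congr e
    simp only [Fintype.card_fin] at this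
    omega
  obtain ⟨β, hβ, b, e⟩ := sel5 hR E hN hc (hR.simple j)
  refine ⟨_, 1, (as5 hR E hN hc hγ g).2, rt (by decide) hc _, .inr (second hR (by decide) hc
    (as5 hR E hN hc hγ g).1 (as5 hR E hN hc hβ b).2 (by rw [hN _ hγ, hN _ hβ]) (fun z => h1 ?_) ?_)⟩
  · rcases e with e | e <;> rw [e]
    exacts [z, neg_mem (AddMemClass.add_mem z (La_w (by decide) hc z))]
  by_contra z
  push Not at z
  refine h2 ?_
  rcases e with e | e <;> rw [e]
  · exact z i
  have := (rt (by decide) hc γ).2 (0 - 1) (i - 1)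
  rw [sub_add_cancel, sub_add_cancel, sy_zero] at this
  have k := ext_B hR E (sy 5 w γ (0 - 1) (i - 1)) β
  rw [this] at k
  simp only [sy, B_Bl hR, map_add, map_neg, map_sub, LinearMap.sub_apply] at *
  simp only [k, z, sub_self, add_zero, neg_zero]

end Vale.Agent.P011UD7
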