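import Vale.Agent.P011UD7.Kit

/-!
The highest root.
-/

set_option autoImplicit false
set_option linter.all false

namespace Vale.Agent.P011UD7

open Matrix Vale.Agent.P183CH Vale.Agent.P183CH.RS Vale.Agent.P011U Vale.Agent.P011UHB
open Vale.Agent.P011UC (pa)
open Vale.Agent.P011UD

variable {R : RS} {π : Equiv.Perm (Fin R.r)} {β β' γ : R.Q} {i : Fin R.r}

/-- roots of the greatest height -/
def Top (β : R.Q) : Prop := β ∈ R.Φ ∧ ∀ γ ∈ R.Φ, R.ht γ ≤ R.ht β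

theorem ht_sub (γ δ : R.Q) : R.ht (γ - δ) = R.ht γ - R.ht δ := by
  simp [ht, Finset.sum_sub_distrib]

theorem ht_neg (γ : R.Q) : R.ht (-γ) = -R.ht γ := by simp [ht]

/-- Two nodes are joined to the new node of the extended diagram. -/
def Two {n : ℕ} (C : Matrix (Fin n) (Fin n) ℤ) (a b : Fin n) : Prop :=
  ∃ v : Fin n → ℤ, (∀ m, 0 < v m) ∧ v a = 1 ∧ v b = 1 ∧
    ∀ m, if m = a ∨ m = b then 0 < ∑ c, v c * C c m else ∑ c, v c * C c m = 0

theorem twoE (a b : Fin 6) (h : a ≠ b) : ¬Two CartanMatrix.E₆ a b := by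
  rintro ⟨v, h0, h1, h2, h3⟩
  have := h0 0; have := h0 1; have := h0 2; have := h0 3; have := h0 4; have := h0 5
  have k0 := h3 0; have k1 := h3 1; have k2 := h3 2; have k3 := h3 3; have k4 := h3 4
  have k5 := h3 5
  simp only [Fin.sum_univ_six, CartanMatrix.E₆, of_apply, cons_val] at k0 k1 k2 k3 k4 k5
  fin_cases a <;> fin_cases b <;> simp at h h1 h2 k0 k1 k2 k3 k4 k5 <;> omega

theorem twoD {n : ℕ} (h4 : 4 ≤ n) (a b : Fin n) (h : a.1 ≠ b)
    (ha : ¬(a.1 + 3 = n ∨ (a.1 + 2 < n ∧ 4 < n))) (hb : ¬(b.1 + 3 = n ∨ (b.1 + 2 < n ∧ 4 < n))) :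
    ¬Two (CartanMatrix.D n) a b := by
  rintro ⟨v, h0, h1, h2, h3⟩
  obtain ⟨u, hu⟩ : ∃ u : ℕ → ℤ, ∀ m : Fin n, v m = u m :=
    ⟨fun m => if h : m < n then v ⟨m, h⟩ else 0, fun m => by simp⟩
  have := a.2
  have := b.2
  have k1 := h3 a
  have k2 := h3 ⟨n - 3, by omega⟩
  have p1 := h0 ⟨n - 4, by omega⟩
  have p2 := h0 ⟨n - 2, by omega⟩
  have p3 := h0 ⟨n - 1, by omega⟩
  simp only [hu, sumD h4, Fin.ext_iff, true_or, if_true] at k1 k2 h1 h2 p1 p2 p3
  rw [if_neg (by omega), if_neg (by omega), if_pos (by omega), show n - 3 - 1 = n - 4 by omega,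
    show n - 3 + 1 = n - 2 by omega, show n - 3 + 2 = n - 1 by omega] at k2
  have e : ∀ c : ℕ, u c = 1 → c = n - 4 ∨ c = n - 2 ∨ c = n - 1 → (c = n - 4 ∧ u (n - 4) = 1) ∨
      (c = n - 2 ∧ u (n - 2) = 1) ∨ (c = n - 1 ∧ u (n - 1) = 1) := by
    rintro c hc (rfl | rfl | rfl) <;> simp [hc]
  have := e a h1 (by omega)
  have := e b h2 (by omega)
  split_ifs at k1 with c1 c2 c3
  · rw [show a.1 + 1 = n - 3 by omega] at k1
    omega
  all_goals omega

variable (hR : R.Ok)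
include hR

theorem exists_top : ∃ β, Top (R := R) β := Finset.exists_max_image _ _ ⟨_, hR.simple ⟨0, hR.pos⟩⟩

theorem ht_ne (h : γ ∈ R.Φ) : R.ht γ ≠ 0 := by
  rcases (hR.sign γ h).2 with e | e
  · exact (hR.ht_pos ⟨h, e⟩).ne'
  · have := hR.ht_pos ⟨hR.neg_mem h, neg_nonneg.2 e⟩
    rw [ht_neg] at this
    omega

theorem Top.dom (h : Top β) (j : Fin R.r) : 0 ≤ R.pr β j := by
  have := h.2 _ (hR.map_mem (sE_mem_W j) h.1)
  rw [hR.sE_eq, ht_sub, ht_smul, ht_α] at this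
  omega

theorem Top.dom' (h : Top β) (j : Fin R.r) : 0 ≤ R.B (R.α j) β := by
  have := mul_nonneg (h.dom hR j) (hR.B_α_pos j).le
  rw [hR.pr_B, hR.B_comm] at this
  omega

theorem Top.nn (h : Top β) : 0 ≤ β := (hR.sign β h.1).2.resolve_right fun e => by
  have := h.2 _ (hR.simple ⟨0, hR.pos⟩)
  have := ht_nonneg (neg_nonneg.2 e)
  rw [ht_α, ht_neg] at *
  omega

theorem Top.pos (h : Top β) (j : Fin R.r) : 0 < β j := by
  obtain ⟨i, hi⟩ := hR.exists_pos ⟨h.1, h.nn hR⟩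
  refine hR.conn (fun i => 0 < β i) i j hi fun i j hi e => ?_
  by_contra c
  have c0 : β j = 0 := le_antisymm (not_lt.1 c) (h.nn hR j)
  have ne : i ≠ j := fun e => c (e ▸ hi)
  refine (h.dom hR j).not_gt ?_
  rw [pr_eq]
  refine Finset.sum_neg' (fun m _ => ?_) ⟨i, Finset.mem_univ _, mul_neg_of_pos_of_neg hi
    ((hR.A_nonpos ne).lt_of_ne fun e' => e (hR.A_zero_comm.1 e'))⟩
  by_cases e' : m = j
  · rw [e', c0, zero_mul]
  · exact mul_nonpos_of_nonneg_of_nonpos (h.nn hR m) (hR.A_nonpos e')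

theorem Top.uniq (h : Top β) (h' : Top β') : β = β' := by
  wlog hl : R.B β β ≤ R.B β' β' generalizing β β'
  · exact (this h' h (not_le.1 hl).le).symm
  obtain ⟨n, h1, h2⟩ := exists_cp hR β h'.1
  have h0 := B_root hR h'.1
  have hp : 0 < R.B β β' := by
    obtain ⟨i, hi⟩ : ∃ i, R.B (R.α i) β' ≠ 0 := by
      by_contra c
      push Not at c
      simp [hR.B_sum β' β', c] at h0
    rw [hR.B_sum]
    exact Finset.sum_pos' (fun m _ => mul_nonneg (h.nn hR m) (h'.dom' hR m))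
      ⟨i, Finset.mem_univ _, mul_pos (h.pos hR i) ((h'.dom' hR i).lt_of_ne' hi)⟩
  rcases cp_le hR h1 h'.1 hl with e | e | e
  · obtain rfl : n = 1 := by unfold Cp at h1; nlinarith
    have := ht_ne hR (h2 h.1)
    have := h.2 _ h'.1
    have := h'.2 _ h.1
    rw [one_smul, ht_sub] at *
    omega
  · exact e
  · rw [e, hR.B_neg] at hp
    omega

theorem Top.pa (h : Top β) (hπ : Dg R π) : pa R π β = β :=
  Top.uniq hR ⟨pa_mem hR hπ h.1, fun γ e => ht_pa π β ▸ h.2 γ e⟩ h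

theorem Top.cp (h : Top β) (h2 : 2 ≤ R.r) (hi : 0 < R.pr β i) : Cp R (R.α i) β 1 := by
  obtain ⟨n, h1, h3⟩ := exists_cp hR (R.α i) h.1
  have h4 := h.2 _ (hR.neg_mem (h3 (hR.simple i)))
  rw [ht_neg, ht_sub, ht_smul, ht_α] at h4
  have h5 : (R.r : ℤ) ≤ R.ht β := by
    simpa [ht] using Finset.card_nsmul_le_sum Finset.univ β 1 fun m _ => h.pos hR m
  have h6 := mul_pos hi (hR.B_α_pos i)
  have h0 := B_root hR h.1
  rw [hR.pr_B, hR.B_comm, ← h1] at h6
  have : 0 < n := (mul_pos_iff_of_pos_right h0).1 h6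
  obtain rfl : n = 1 := by nlinarith
  exact h1

theorem Top.two (h : Top β) (h2 : 2 ≤ R.r) {j : Fin R.r} (hi : 0 < R.pr β i) (hj : 0 < R.pr β j)
    (ne : i ≠ j) {n : ℕ} {C : Matrix (Fin n) (Fin n) ℤ} {e : Fin R.r ≃ Fin n} (t : Ty R C e) :
    Two C (e i) (e j) := by
  have h0 := B_root hR h.1
  have c1 := h.cp hR h2 hi
  have c2 := h.cp hR h2 hj
  have s := hR.B_sum β β
  have nn := fun m => mul_nonneg (h.nn hR m) (h.dom' hR m)
  rw [← Finset.sum_sdiff (Finset.subset_univ {i, j}), Finset.sum_pair ne] at s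
  have n2 := Finset.sum_nonneg (s := Finset.univ \ {i, j}) fun m _ => nn m
  have p1 := h.pos hR i
  have p2 := h.pos hR j
  unfold Cp at c1 c2
  have e1 : β i = 1 := by nlinarith
  have e2 : β j = 1 := by nlinarith
  refine ⟨fun a => β (e.symm a), fun m => h.pos hR _, by simpa, by simpa, fun m => ?_⟩
  obtain ⟨m, rfl⟩ := e.surjective m
  have : ∑ c, β (e.symm c) * C c (e m) = R.pr β m := by
    simp only [pr_eq, ← e.sum_comp, e.symm_apply_apply, t _ _]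
  rw [this]
  split_ifs with c
  · rcases c with c | c <;> rwa [e.injective c]
  · have := (Finset.sum_eq_zero_iff_of_nonneg fun m _ => nn m).1
      (show ∑ m ∈ Finset.univ \ {i, j}, _ = 0 by rw [e1, e2] at s; omega) m (by simpa using c)
    have k := hR.pr_B β m
    rw [hR.B_comm β, (mul_eq_zero.1 this).resolve_left (h.pos hR m).ne', mul_zero] at k
    exact (mul_eq_zero.1 k).resolve_right (hR.B_α_pos m).ne'

omit hR in
theorem hr : HR := fun R hR h2 => by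
  obtain ⟨β, h⟩ := exists_top hR
  obtain ⟨i, -, hi⟩ := hR.exists_pr_pos ⟨h.1, h.nn hR⟩
  refine ⟨i, β, h.1, h.cp hR h2 hi, fun π hπ => h.pa hR hπ, fun hA π hπ => ?_⟩
  by_contra c
  have hj : 0 < R.pr β (π i) := by rwa [← h.pa hR hπ, pr_pa hπ]
  have k : π ≠ 1 := fun e => c (by rw [e]; rfl)
  rcases cls R hR with t | ⟨n, e, l, t⟩ | ⟨n, e, l, t⟩ | ⟨n, e, l, t⟩ | ⟨e, t⟩ | ⟨e, t⟩ |
    ⟨e, t⟩ | ⟨e, t⟩ | ⟨e, t⟩
  · exact hA t
  · exact k (pc_one (autB l (t.au hπ)))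
  · exact k (pc_one (autC (by omega) (t.au hπ)))
  · refine twoD l _ _ (fun x => c (e.injective (Fin.ext x)).symm) (fun x => c ?_) (fun x => c ?_)
      (h.two hR h2 hi hj (Ne.symm c) t)
    · simpa using autD l (t.au hπ) _ x
    · simpa using autD l (t.au hπ) _ x
  · exact twoE _ _ (fun x => c (e.injective x).symm) (h.two hR h2 hi hj (Ne.symm c) t)
  · exact k (pc_one (autE7 (t.au hπ)))
  · exact k (pc_one (autE8 (t.au hπ)))
  · exact k (pc_one (autF (t.au hπ)))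
  · exact k (pc_one (autG (t.au hπ)))

end Vale.Agent.P011UD7
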