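import Vale.Agent.P011UHB.Defs
import Vale.Agent.P011UD.Aut

/-!
The extended Weyl group, reflections in arbitrary roots.
-/

set_option autoImplicit false
set_option linter.all false

namespace Vale.Agent.P011UD7

open Matrix Vale.Agent.P183CH Vale.Agent.P183CH.RS Vale.Agent.P011U Vale.Agent.P011UHB
open Vale.Agent.P011UC (pa)

variable {R : RS} {π : Equiv.Perm (Fin R.r)} {w w' : R.Aut} {γ δ ρ : R.Q} {i j : Fin R.r} {n : ℤ}

theorem pa_apply (π : Equiv.Perm (Fin R.r)) (γ : R.Q) (i : Fin R.r) :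
    pa R π γ i = γ (π.symm i) := rfl

theorem pa_α (π : Equiv.Perm (Fin R.r)) (i : Fin R.r) : pa R π (R.α i) = R.α (π i) := by
  ext j
  simp only [pa_apply, α_apply, Equiv.symm_apply_eq]

theorem pa_one : pa R 1 = 1 := rfl

theorem pa_mul (π π' : Equiv.Perm (Fin R.r)) : pa R (π * π') = pa R π * pa R π' := rfl

theorem pa_inv (π : Equiv.Perm (Fin R.r)) : (pa R π)⁻¹ = pa R π⁻¹ :=
  inv_eq_of_mul_eq_one_right (by rw [← pa_mul, mul_inv_cancel, pa_one])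

theorem dg_inv (h : Dg R π) : Dg R π⁻¹ := fun i j => by
  rw [← h]
  simp

theorem dg_mul {π' : Equiv.Perm (Fin R.r)} (h : Dg R π) (h' : Dg R π') : Dg R (π * π') :=
  fun i j => (h _ _).trans (h' i j)

theorem pr_pa (h : Dg R π) (γ : R.Q) (j : Fin R.r) : R.pr (pa R π γ) (π j) = R.pr γ j := by
  rw [pr_eq, pr_eq, ← Equiv.sum_comp π]
  simp only [pa_apply, Equiv.symm_apply_apply, h _ _]

theorem ht_pa (π : Equiv.Perm (Fin R.r)) (γ : R.Q) : R.ht (pa R π γ) = R.ht γ :=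
  Equiv.sum_comp π.symm γ

theorem pa_dot (π : Equiv.Perm (Fin R.r)) (γ δ : R.Q) : pa R π γ ⬝ᵥ pa R π δ = γ ⬝ᵥ δ :=
  Equiv.sum_comp π.symm fun i => γ i * δ i

variable (hR : R.Ok)
include hR

theorem pa_sE (h : Dg R π) (i : Fin R.r) : pa R π * R.sE i * (pa R π)⁻¹ = R.sE (π i) :=
  mul_inv_eq_of_eq_mul (LinearEquiv.ext fun γ => by
    rw [mul_app, mul_app, hR.sE_eq, hR.sE_eq, map_sub, map_smul, pa_α, pr_pa h])

theorem pa_conj (h : Dg R π) (hw : w ∈ R.W) : pa R π * w * (pa R π)⁻¹ ∈ R.W := by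
  obtain ⟨l, -, rfl⟩ := hR.exists_wd hw
  clear hw
  induction l with
  | nil => simpa [wd_nil] using one_mem _
  | cons i l ih =>
    have := mul_mem (sE_mem_W (π i)) ih
    rw [← pa_sE hR h] at this
    simpa [wd_cons, mul_assoc] using this

theorem pa_mem (h : Dg R π) (hγ : γ ∈ R.Φ) : pa R π γ ∈ R.Φ := by
  obtain ⟨w, hw, i, rfl⟩ := hR.exists_conj hγ
  have := hR.map_mem (pa_conj hR h hw) (hR.simple (π i))
  rwa [← pa_α, mul_app, inv_app] at this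

theorem B_pa (h : Dg R π) (γ δ : R.Q) : R.B (pa R π γ) (pa R π δ) = R.B γ δ := by
  have := hR.finite_W
  have := Fintype.ofFinite R.W
  rw [hR.B_eq, hR.B_eq]
  refine (Fintype.sum_bijective (fun w : R.W => (⟨_, pa_conj hR h w.2⟩ : R.W))
    (Finite.injective_iff_bijective.1 fun a b e => Subtype.ext ?_) _ _ fun w => ?_).symm
  · simpa using e
  · simp only [mul_app, inv_app, pa_dot]

omit hR in
theorem ext_W (hw : w ∈ R.W) : Ext R w := ⟨w, hw, 1, fun _ _ => rfl, rfl⟩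

theorem ext_mul (h : Ext R w) (h' : Ext R w') : Ext R (w * w') := by
  obtain ⟨a, ha, π, hπ, rfl⟩ := h
  obtain ⟨b, hb, π', hπ', rfl⟩ := h'
  exact ⟨_, mul_mem ha (pa_conj hR hπ hb), _, dg_mul hπ hπ', by simp [pa_mul, mul_assoc]⟩

theorem ext_inv (h : Ext R w) : Ext R w⁻¹ := by
  obtain ⟨a, ha, π, hπ, rfl⟩ := h
  exact ⟨_, pa_conj hR (dg_inv hπ) (inv_mem ha), _, dg_inv hπ, by simp [← pa_inv]⟩

theorem ext_mem (h : Ext R w) (hγ : γ ∈ R.Φ) : w γ ∈ R.Φ := by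
  obtain ⟨a, ha, π, hπ, rfl⟩ := h
  exact (hR.map_mem ha (pa_mem hR hπ hγ) :)

theorem ext_B (h : Ext R w) (γ δ : R.Q) : R.B (w γ) (w δ) = R.B γ δ := by
  obtain ⟨a, ha, π, hπ, rfl⟩ := h
  rw [mul_app, mul_app, hR.B_inv ha, B_pa hR hπ]

theorem ext_adj (h : Ext R w) (γ δ : R.Q) : R.B (w γ) δ = R.B γ (w⁻¹ δ) := by
  rw [← ext_B hR h γ, app_inv]

/-- the invariant form as a bilinear map -/
noncomputable def Bl : R.Q →ₗ[ℤ] R.Q →ₗ[ℤ] ℤ :=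
  LinearMap.mk₂ ℤ R.B hR.B_add hR.B_smul
    (fun a _ _ => by rw [hR.B_comm, hR.B_add, hR.B_comm a, hR.B_comm a])
    fun _ _ _ => by rw [hR.B_comm, hR.B_smul, hR.B_comm]; rfl

theorem B_Bl (γ δ : R.Q) : R.B γ δ = Bl hR γ δ := rfl

theorem B_nonneg (γ : R.Q) : 0 ≤ R.B γ γ := by
  by_cases h : γ = 0
  · simp [B_Bl hR, h]
  · exact (hR.B_pos h).le

theorem eq_zero (h : R.B γ γ ≤ 0) : γ = 0 := by
  by_contra c
  exact (hR.B_pos c).not_ge h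

theorem B_root (h : γ ∈ R.Φ) : 0 < R.B γ γ := hR.B_pos (hR.sign γ h).1

theorem exists_cp (γ : R.Q) (hρ : ρ ∈ R.Φ) : ∃ n, Cp R γ ρ n ∧ (γ ∈ R.Φ → γ - n • ρ ∈ R.Φ) := by
  obtain ⟨u, hu, i, rfl⟩ := hR.exists_conj hρ
  refine ⟨R.pr (u⁻¹ γ) i, ?_, fun h => ?_⟩
  · rw [Cp, hR.B_inv hu, hR.pr_B, ← hR.B_inv hu, app_inv]
  · have := hR.map_mem hu (hR.map_mem (sE_mem_W i) (hR.map_mem (inv_mem hu) h))
    rwa [hR.sE_eq, map_sub, map_smul, app_inv] at this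

theorem cp_uniq {m : ℤ} (hρ : ρ ∈ R.Φ) (h : Cp R γ ρ n) (h' : Cp R γ ρ m) : n = m :=
  mul_right_cancel₀ (B_root hR hρ).ne' (h.trans h'.symm)

theorem refl_mem (hγ : γ ∈ R.Φ) (hρ : ρ ∈ R.Φ) (h : Cp R γ ρ n) : γ - n • ρ ∈ R.Φ := by
  obtain ⟨m, h1, h2⟩ := exists_cp hR γ hρ
  exact cp_uniq hR hρ h1 h ▸ h2 hγ

theorem add_mem (hγ : γ ∈ R.Φ) (hρ : ρ ∈ R.Φ) (h : 2 * R.B γ ρ = -R.B ρ ρ) : γ + ρ ∈ R.Φ := by
  simpa using refl_mem hR hγ hρ (n := -1) (by rw [Cp, h, neg_one_mul])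

/-- Pairings with the coroot of a longer root. -/
theorem cp_le (h : Cp R γ ρ n) (hρ : ρ ∈ R.Φ) (hl : R.B γ γ ≤ R.B ρ ρ) :
    (-1 ≤ n ∧ n ≤ 1) ∨ γ = ρ ∨ γ = -ρ := by
  have h0 := B_root hR hρ
  unfold Cp at h
  by_cases c : 2 ≤ n
  · refine .inr (.inl (sub_eq_zero.1 (eq_zero hR ?_)))
    have := hR.B_comm γ ρ
    simp only [B_Bl hR, map_sub, LinearMap.sub_apply] at *
    nlinarith
  by_cases c' : n ≤ -2
  · refine .inr (.inr (eq_neg_of_add_eq_zero_left (eq_zero hR ?_)))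
    have := hR.B_comm γ ρ
    simp only [B_Bl hR, map_add, LinearMap.add_apply] at *
    nlinarith
  omega

theorem B_zero_iff (i j : Fin R.r) : R.B (R.α i) (R.α j) = 0 ↔ R.A i j = 0 := by
  have := hR.pr_B (R.α i) j
  have h0 := hR.B_α_pos j
  rw [pr_α] at this
  refine ⟨fun h => ?_, fun h => ?_⟩
  · rw [h, mul_zero] at this
    exact (mul_eq_zero.1 this).resolve_right h0.ne'
  · rw [h] at this
    omega

/-- Irreducibility. -/
theorem all_of (H : R.Q → Prop) (hγ : γ ≠ 0) (h : ∀ j, H (R.α j) ∨ (R.B (R.α j) γ = 0 ∧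
    ∀ δ, H δ → R.B (R.α j) δ = 0)) (j : Fin R.r) : H (R.α j) := by
  obtain ⟨i, hi⟩ : ∃ i, R.B (R.α i) γ ≠ 0 := by
    by_contra c
    push Not at c
    have := hR.B_pos hγ
    simp [hR.B_sum γ γ, c] at this
  exact hR.conn (fun i => H (R.α i)) i j ((h i).resolve_right fun e => hi e.1) fun i j hi e =>
    (h j).resolve_right fun e' => e ((B_zero_iff hR j i).1 (e'.2 _ hi))

end Vale.Agent.P011UD7
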