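import Vale.Agent.P011UD7.Kit
import Vale.Agent.P011UHN.Kit
import Mathlib.Analysis.InnerProductSpace.Spectrum

/-!
Simply laced root systems.
-/

set_option autoImplicit false
set_option linter.all false

namespace Vale.Agent.P011UD7

open Matrix Vale.Agent.P183CH Vale.Agent.P183CH.RS Vale.Agent.P011U Vale.Agent.P011UHB
open Vale.Agent.P011UC (pa)

theorem spec {V : Type} [AddCommGroup V] [Module ℝ V] [FiniteDimensional ℝ V]
    (b : V →ₗ[ℝ] V →ₗ[ℝ] ℝ) (hs : ∀ x y, b x y = b y x) (hp : ∀ x, x ≠ 0 → 0 < b x x)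
    (S T : V →ₗ[ℝ] V) (hS : ∀ x y, b (S x) y = b x (S y))
    (hT : ∀ x (c : ℝ), x ≠ 0 → S x = c • x → ∃ d : ℝ, d ^ 2 < 1 ∧ T x = d • x) (y : V)
    (hy : y ≠ 0) : b (T y) (T y) < b y y := by
  letI core : InnerProductSpace.Core ℝ V :=
    { inner := fun x y => b x y
      conj_inner_symm := fun x y => hs y x
      re_inner_nonneg := fun x => by
        by_cases h : x = 0
        · simp [h]
        · exact (hp x h).le
      add_left := fun x y z => by simp
      smul_left := fun x y r => by simp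
      definite := fun x h => by_contra fun c => (hp x c).ne' h }
  letI : NormedAddCommGroup V := core.toNormedAddCommGroup
  letI : InnerProductSpace ℝ V := InnerProductSpace.ofCore core.toCore
  have h : S.IsSymmetric := hS
  have := fun i => hT _ _ (h.hasEigenvector_eigenvectorBasis rfl i).2
    (h.apply_eigenvectorBasis rfl i)
  generalize h.eigenvectorBasis rfl = e at this
  choose d h1 h2 using this
  have h3 : ∀ i, inner ℝ (e i) (T y) = d i * inner ℝ (e i) y := fun i => by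
    conv_lhs => rw [← e.sum_repr' y, map_sum]
    simp only [map_smul, h2, smul_smul]
    rw [e.orthonormal.inner_right_fintype, mul_comm]
  show inner ℝ (T y) (T y) < inner ℝ y y
  rw [real_inner_self_eq_norm_sq, real_inner_self_eq_norm_sq, ← e.sum_sq_inner_right,
    ← e.sum_sq_inner_right]
  obtain ⟨i, hi⟩ : ∃ i, inner ℝ (e i) y ≠ 0 := by
    by_contra c
    push Not at c
    exact hy (by rw [← e.sum_repr' y]; simp [c])
  simp only [h3, mul_pow]
  exact Finset.sum_lt_sum (fun j _ => mul_le_of_le_one_left (sq_nonneg _) (h1 j).le)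
    ⟨i, Finset.mem_univ _, mul_lt_of_lt_one_left (sq_pos_of_ne_zero hi) (h1 i)⟩

variable {R : RS} {w : R.Aut} {γ δ : R.Q} {N : ℤ}

/-- All roots have the same length. -/
def SL (R : RS) (N : ℤ) : Prop := ∀ γ ∈ R.Φ, R.B γ γ = N

theorem end_ext {E F : Module.End ℤ R.Q} (h : ∀ j, E (R.α j) = F (R.α j)) : E = F :=
  LinearMap.ext fun γ => by
    rw [eq_sum γ, map_sum, map_sum]
    simp only [map_smul, h]

variable (hR : R.Ok)
include hR

theorem sl_of (h : ∀ i j, R.A i j = R.A j i) : ∃ N, SL R N := by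
  refine ⟨R.B (R.α ⟨0, hR.pos⟩) (R.α ⟨0, hR.pos⟩), fun γ hγ => ?_⟩
  obtain ⟨u, hu, j, rfl⟩ := hR.exists_conj hγ
  rw [hR.B_inv hu]
  refine hR.conn (fun j => R.B (R.α j) (R.α j) = _) _ j rfl fun i j hi e => hi ▸ ?_
  have h1 := hR.pr_B (R.α i) j
  have h2 := hR.pr_B (R.α j) i
  rw [pr_α, h] at h1
  rw [pr_α, hR.B_comm (R.α j), ← h1] at h2
  exact (mul_left_cancel₀ e h2).symm

theorem sl_E8 (h : ∃ e, Ty R CartanMatrix.E₈ e) : (∃ N, SL R N) ∧ ∀ π, Dg R π → π = 1 := by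
  obtain ⟨e, h⟩ := h
  exact ⟨sl_of hR fun i j => by rw [h, h, CartanMatrix.E₈_isSymm.apply],
    fun π hπ => pc_one (P011UD.autE8 (h.au hπ))⟩

variable (hN : SL R N)
include hN

theorem SL.pos : 0 < N := hN _ (hR.simple ⟨0, hR.pos⟩) ▸ hR.B_α_pos _

theorem SL.pr (γ : R.Q) (j : Fin R.r) : R.pr γ j * N = 2 * R.B γ (R.α j) := by
  rw [← hR.pr_B, hN _ (hR.simple j)]

theorem SL.dvd2 (γ δ : R.Q) : N ∣ 2 * R.B γ δ := by
  rw [hR.B_sum, Finset.mul_sum]
  exact Finset.dvd_sum fun j _ => by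
    rw [mul_left_comm, hR.B_comm, ← hN.pr hR]
    exact (dvd_mul_left _ _).mul_left _

theorem SL.min (h : γ ≠ 0) : N ≤ R.B γ γ := by
  refine Int.le_of_dvd (hR.B_pos h) ?_
  rw [eq_sum γ]
  refine Finset.sum_induction _ (fun γ => N ∣ R.B γ γ) (fun a b ha hb => ?_) ?_ fun j _ => ?_
  · have := dvd_add (dvd_add ha hb) (hN.dvd2 hR a b)
    have e := hR.B_comm b a
    simp only [B_Bl hR, map_add, LinearMap.add_apply] at *
    rwa [e, show ∀ x y z : ℤ, x + z + (z + y) = x + y + 2 * z from fun _ _ _ => by ring]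
  · simp [B_Bl hR]
  · rw [hR.B_smul, hR.B_comm, hR.B_smul, hN _ (hR.simple j)]
    exact ((dvd_refl N).mul_left _).mul_left _

theorem SL.split {E F : Module.End ℤ R.Q} (h1 : E + F = 1) (h2 : E * F = 0)
    (hE : ∀ γ δ, R.B (E γ) δ = R.B γ (E δ)) : E = 0 ∨ F = 0 := by
  have e : ∀ γ, E γ + F γ = γ := fun γ => LinearMap.congr_fun h1 γ
  have k : ∀ j, E (R.α j) = 0 ∨ F (R.α j) = 0 := fun j => by
    by_contra c
    push Not at c
    have a1 := hN.min hR c.1
    have a2 := hN.min hR c.2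
    have a3 := hN _ (hR.simple j)
    have a4 := hE (R.α j) (F (R.α j))
    have a5 := hR.B_comm (F (R.α j)) (E (R.α j))
    have := hN.pos hR
    rw [show E (F (R.α j)) = 0 from LinearMap.congr_fun h2 _] at a4
    rw [← e (R.α j)] at a3
    simp only [B_Bl hR, map_add, LinearMap.add_apply, map_zero] at *
    omega
  refine or_iff_not_imp_left.2 fun c => end_ext fun j => ?_
  obtain ⟨i, hi⟩ := not_forall.1 fun h => c (end_ext h)
  refine hR.conn (fun j => F (R.α j) = 0) i j ((k i).resolve_left hi) fun i j hi e' =>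
    (k j).resolve_left fun hj => e' ((B_zero_iff hR j i).1 ?_)
  rw [← e (R.α i), hi, add_zero, ← hE, hj]
  simp [B_Bl hR]

theorem SL.pr_le (hγ : γ ∈ R.Φ) (j : Fin R.r) :
    (-1 ≤ R.pr γ j ∧ R.pr γ j ≤ 1) ∨ γ = R.α j ∨ γ = -R.α j :=
  cp_le hR (hR.pr_B γ j) (hR.simple j) (by rw [hN _ hγ, hN _ (hR.simple j)])

/-- Two roots with an obtuse angle are conjugate to simple roots. -/
theorem SL.pair (k : Fin R.r) (hγ : γ ∈ R.Pos) (h : R.pr γ k ≤ 0) :
    ∃ u ∈ R.W, ∃ i j, u (R.α k) = R.α i ∧ u γ = R.α j := by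
  obtain ⟨n, hn⟩ : ∃ n : ℕ, R.ht γ ≤ n := ⟨_, Int.self_le_toNat _⟩
  induction n generalizing k γ with
  | zero => exact absurd hn (hR.ht_pos hγ).not_ge
  | succ n ih =>
    by_cases c : ∃ j, γ = R.α j
    · obtain ⟨j, rfl⟩ := c
      exact ⟨1, one_mem _, k, j, rfl, rfl⟩
    push Not at c
    have ng : ∀ j, γ ≠ -R.α j := fun j e =>
      hR.not_both hγ.1 hγ.2 (e ▸ neg_nonpos.2 (α_nonneg j))
    obtain ⟨m, -, hm⟩ := hR.exists_pr_pos hγ
    have ne : k ≠ m := fun e => hm.not_ge (e ▸ h)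
    have g1 := ((hN.pr_le hR hγ.1 m).resolve_right (not_or.2 ⟨c m, ng m⟩)).2
    have g2 := ((hN.pr_le hR hγ.1 k).resolve_right (not_or.2 ⟨c k, ng k⟩)).1
    have g3 : R.sE m γ = γ + -R.α m := by
      rw [hR.sE_eq, show R.pr γ m = 1 by omega, one_smul, sub_eq_add_neg]
    have g4 := hR.s_pos hγ (c m)
    have g5 : R.A m k = R.A k m := by
      have h1 := hN.pr hR (R.α m) k
      rw [hR.B_comm, ← hN.pr hR, pr_α, pr_α] at h1
      exact mul_right_cancel₀ (hN.pos hR).ne' h1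
    have g6 : R.pr (R.sE m γ) k = R.pr γ k - R.A k m := by
      rw [g3, pr_add, pr_neg, pr_α, g5, sub_eq_add_neg]
    have g7 : R.ht (R.sE m γ) = R.ht γ - 1 := by
      rw [g3, ht_add, ← neg_one_smul ℤ, ht_smul, ht_α]; ring
    have g8 := hR.A_nonpos ne
    by_cases z : R.A k m = 0
    · obtain ⟨u, hu, i, j, h1, h2⟩ := ih k g4 (by omega) (by omega)
      refine ⟨u * R.sE m, mul_mem hu (sE_mem_W m), i, j, ?_, h2⟩
      rwa [mul_app, hR.sE_eq, pr_α, z, zero_smul, sub_zero]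
    have g9 : R.A k m = -1 := by
      rcases hN.pr_le hR (hR.simple k) m with e | e | e
      · rw [pr_α] at e
        omega
      · exact absurd (α_inj e) ne
      · exact (hR.not_both (hR.simple k) (α_nonneg k) (e ▸ neg_nonpos.2 (α_nonneg m))).elim
    have h0 : (R.sE k * R.sE m) (R.α k) = R.α m := by
      rw [mul_app, hR.sE_eq m, pr_α, g9, map_sub, map_smul, hR.sE_α, hR.sE_eq, pr_α, g5, g9]
      module
    obtain ⟨u, hu, i, j, h1, h2⟩ := ih m (γ := R.sE k (R.sE m γ)) (hR.s_pos g4 fun e => by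
      rw [e, pr_α, hR.diag] at g6; omega) (by
        rw [hR.sE_eq k, g6, g3, sub_eq_add_neg, pr_add, pr_add, pr_neg, pr_neg, pr_smul, pr_α, pr_α,
          hR.diag, g9]
        omega) (by
        rw [hR.sE_eq k, sub_eq_add_neg, ← neg_smul, ht_add, ht_smul, ht_α]
        omega)
    exact ⟨u * (R.sE k * R.sE m), mul_mem hu (mul_mem (sE_mem_W k) (sE_mem_W m)), i, j,
      by rw [mul_app, h0, h1], h2⟩

end Vale.Agent.P011UD7
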